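import Vale.Agent.P183IS.Form3
import Vale.Agent.P183CF.RealEx
import Vale.Agent.P183WD.Ctx

/-!
The theorem `ISO3`.
-/

set_option autoImplicit false
set_option linter.all false

namespace Vale.Agent.P183IS

open Module Vale.Agent.P183CF Vale.Agent.P183NK Vale.Agent.P183NK.FS Vale.Agent.P183WD

variable {p : ℕ} [Fact p.Prime] {V : Type} [AddCommGroup V] [Module (ZMod p) V] [Finite V]
  {S : FS p V} {Z : S.NR} {e f x η : S.E}

/-- an isometry between two orthogonal blocks gives a swap -/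
theorem swap_of (he : SI S Z e) (hf : SI S Z f) (h : e * f = 0) (hZ : S.Scal Z 1)
    (hx : x ∈ S.cent Z 1) (h1 : x * e = x) (h2 : f * x = x) (h3 : S.st x * x = e)
    (hr : rk f ≤ rk e) (hq : ∀ v, S.q (x v) = S.q (e v)) :
    ∃ t ∈ S.iso (S.cent Z 1), t * t = 1 ∧ t.1 * e = f * t.1 ∧ t.1 * (1 - e - f) = 1 - e - f := by
  have h' := he.swap hf h
  have hx' := hZ.toLoc.cent.star x hx
  have s1 : e * S.st x = S.st x := by rw [← he.symm, ← st_mul, h1]
  have s2 : S.st x * f = S.st x := by rw [← hf.symm, ← st_mul, h2]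
  have h4 : x * S.st x = f := by
    refine hf.eq_of_le ⟨mul_mem hx hx', by rw [st_mul, st_st], by
      rw [mul_assoc, ← mul_assoc (S.st x), h3, s1]⟩ (by rw [← mul_assoc, h2]) (hr.trans ?_)
    refine (rk_le_of_inj (f := x) he.idem fun v a b => ?_).trans (Submodule.finrank_mono ?_)
    · rw [← a, ← h3, Module.End.mul_apply, b, map_zero]
    · rintro _ ⟨v, rfl⟩
      exact ⟨x v, by rw [← Module.End.mul_apply, mul_assoc, h3, h1]⟩
  have hs := (he.add hf h).compl
  rw [← sub_sub] at hs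
  obtain ⟨r, hr'⟩ : ∃ r, r = 1 - e - f := ⟨_, rfl⟩
  rw [← hr'] at hs ⊢
  have r1 : e * r = 0 := by rw [hr', mul_sub, mul_sub, he.idem, h]; simp
  have r2 : f * r = 0 := by rw [hr', mul_sub, mul_sub, hf.idem, h']; simp
  have r3 := he.swap hs r1
  have r4 := hf.swap hs r2
  have a1 : x * x = 0 := by rw [← h1, mul_assoc, h1, ← h2, ← mul_assoc e, h, zero_mul, mul_zero]
  have a2 : S.st x * S.st x = 0 := by rw [← st_mul, a1, st_zero]
  have a3 : x * r = 0 := by rw [← h1, mul_assoc, r1, mul_zero]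
  have a4 : S.st x * r = 0 := by rw [← s2, mul_assoc, r2, mul_zero]
  have a5 : r * x = 0 := by rw [← h2, ← mul_assoc, r4, zero_mul]
  have a6 : r * S.st x = 0 := by rw [← s1, ← mul_assoc, r3, zero_mul]
  have u : (x + S.st x + r) * (x + S.st x + r) = 1 := by
    simp only [add_mul, mul_add, a1, a2, a3, a4, a5, a6, h3, h4, hs.idem]
    rw [hr']
    abel
  refine ⟨⟨x + S.st x + r, x + S.st x + r, u, u⟩, mem_iso.2 ⟨sub_mem
    (add_mem (add_mem hx hx') hs.mem) (one_mem_cent Z), ?_, fun v => ?_⟩, Units.ext u, ?_, ?_⟩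
  · show S.st (x + S.st x + r) * _ = 1
    rw [st_add, st_add, st_st, hs.symm, add_comm (S.st x)]
    exact u
  · have key : ∀ a b c, f a = a → e b = b → r c = c → S.q (a + b + c) = S.q a + S.q b + S.q c := by
      intro a b c ha hb hc
      have b1 : f b = 0 := by rw [← hb, ← Module.End.mul_apply, h']; rfl
      have b2 : r (a + b) = 0 := by
        rw [← ha, ← hb, map_add, ← Module.End.mul_apply, ← Module.End.mul_apply, r3, r4]; simp
      rw [S.q_add' (S.β_symm_zero (β_idem_orth hs.symm hc b2)),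
        S.q_add' (β_idem_orth hf.symm ha b1)]
    have b3 : e (S.st x v) = S.st x v := by rw [← Module.End.mul_apply, s1]
    have b4 : v = f v + e v + r v := by
      rw [hr']
      show v = f v + e v + (v - e v - f v)
      abel
    have b5 : S.q (S.st x v) = S.q (f v) := by rw [← b3, ← hq, ← Module.End.mul_apply, h4]
    show S.q (x v + S.st x v + r v) = S.q v
    rw [key _ _ _ (by rw [← Module.End.mul_apply, h2]) b3 (idem_app hs.idem v), hq, b5]
    conv_rhs => rw [b4, key _ _ _ (idem_app hf.idem v) (idem_app he.idem v) (idem_app hs.idem v)]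
    ring
  · show (x + S.st x + r) * e = f * (x + S.st x + r)
    rw [add_mul, add_mul, mul_add, mul_add, h1, h2, r2, r3, ← s2, mul_assoc, h', s2, ← s1,
      ← mul_assoc, h', mul_zero, zero_mul]
  · show (x + S.st x + r) * r = r
    rw [add_mul, add_mul, a3, a4, hs.idem, add_zero, zero_add]

omit [Finite V] in
theorem q_spl (hZ : S.Scal Z 1) (s : S.Spl Z 1 η) (he : SI S Z e) (hx : x ∈ S.cent Z 1)
    (h3 : S.st x * x = e) (v : V) : S.q (x v) = S.q (e v) := by
  by_cases ho : S.orth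
  swap
  · rw [(S.alt ho _).1, (S.alt ho _).1]
  have k0 : ∀ {η}, S.Spl Z 1 η → ∀ w, S.q (η w) = 0 := fun s w => by
    rw [hZ.compat _ s.mem 0 (zero_mem _) (by rw [s.mul, zero_mul]) w]
    simp
  have key : ∀ y ∈ S.cent Z 1, S.q (y v) = S.β (η v) ((S.st y * y) (S.st η v)) := fun y hy => by
    have h1 : y v = η (y v) + S.st η (y v) := by
      rw [← LinearMap.add_apply, s.add]; rfl
    rw [h1, S.q_add ho, k0 s, k0 (s.star hZ), zero_add, zero_add, ← Module.End.mul_apply η,
      ← Module.End.mul_apply (S.st η), ← hy.2.2 _ s.mem, ← hy.2.2 _ (s.star hZ).mem,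
      Module.End.mul_apply, Module.End.mul_apply, β_mu]
  rw [key x hx, key e he.mem, h3, he.symm, he.idem]

omit [Finite V] in
theorem mem_of_spl (hZ : S.Scal Z 1) (s : S.Spl Z 1 η) (hx : x ∈ S.cent (S.sym Z) 1)
    (h1 : x * η = x) (h2 : η * x = x) : x ∈ S.cent Z 1 := by
  refine mem_cent_one.2 fun z hz => ?_
  obtain ⟨a, ha, b, hb, rfl⟩ := s.decomp hZ hz
  have h3 : x * S.st η = 0 := by rw [← h1, mul_assoc, s.mul, mul_zero]
  have h4 : S.st η * x = 0 := by rw [← h2, ← mul_assoc, s.mul' hZ, zero_mul]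
  rw [mul_add, add_mul, ← mul_assoc, ← mul_assoc, hx.2.2 a ha, hx.2.2 b hb, mul_assoc, mul_assoc,
    mul_assoc, mul_assoc, h1, h2, h3, h4]

theorem finrank_eq {F : Type} [Field F] [Finite F] [Module F V] {a b : End F V}
    (h : rk (S.up F a) = rk (S.up F b)) :
    finrank F (LinearMap.range a) = finrank F (LinearMap.range b) := by
  have := Real.fd (F := F) (V := V)
  refine Nat.pow_right_injective (Finite.one_lt_card (α := F)) ?_
  show Nat.card F ^ _ = Nat.card F ^ _
  rw [← Form.card_sub, ← Form.card_sub]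
  exact (card_range (S.up F a)).trans ((congrArg (p ^ ·) h).trans (card_range (S.up F b)).symm)

theorem exists_spl (hZ : S.Scal Z 1) (s : S.Spl Z 1 η) (he : SI S Z e) (hf : SI S Z f)
    (hr : rk e = rk f) : ∃ x ∈ S.cent Z 1, x * e = x ∧ f * x = x ∧ S.st x * x = e := by
  obtain ⟨F, _, _, _, φ, τ, h⟩ := exists_real hZ.sym_scal fun x hx h0 => hZ.inv_sym hx h0
  have := Real.fd (F := F) (V := V)
  have k1 : ∀ {e η}, S.Spl Z 1 η → SI S Z e → e * η * (e * η) = e * η := fun {e η} s he => by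
    rw [mul_assoc, ← mul_assoc η, ← he.mem.2.2 _ s.mem, mul_assoc, s.idem hZ, ← mul_assoc, he.idem]
  have k2 : ∀ {e}, SI S Z e → rk e = 2 * rk (e * η) := fun {e} he => by
    have h1 := rk_add (k1 s he) (k1 (s.star hZ) he) (by
      rw [he.mem.2.2 _ (s.star hZ).mem, mul_assoc, ← mul_assoc η, s.mul, zero_mul, mul_zero]) (by
      rw [he.mem.2.2 _ s.mem, mul_assoc, ← mul_assoc (S.st η), s.mul' hZ, zero_mul, mul_zero])
    have h2 := card_im_st (S := S) (e * η)
    rw [st_mul, he.symm, ← he.mem.2.2 _ (s.star hZ).mem, card_range, card_range] at h2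
    rw [← mul_add, s.add, mul_one, Nat.pow_right_injective (Fact.out : p.Prime).two_le h2] at h1
    omega
  have k3 : ∀ {e}, SI S Z e → ∃ a, e * η = S.up F a := fun he =>
    h.mem_cent'.1 (cent_anti (sym_le Z) 1 (mul_mem he.mem (hZ.le_cent s.mem)))
  obtain ⟨a, ha⟩ := k3 he
  obtain ⟨b, hb⟩ := k3 hf
  have haa : ∀ v, a (a v) = a v := fun v => idem_app (ha ▸ k1 s he) v
  have hbb : ∀ v, b (b v) = b v := fun v => idem_app (hb ▸ k1 s hf) v
  let ψ := LinearEquiv.ofFinrankEq _ _ (finrank_eq (S := S) (a := a) (b := b) (by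
    have h1 := k2 he
    have h2 := k2 hf
    rw [← ha, ← hb]
    omega))
  have k4 : ∀ {a : End F V}, (∀ v, a (a v) = a v) → ∀ w : LinearMap.range a, a w.1 = w.1 := by
    rintro a h ⟨_, v, rfl⟩
    exact h v
  obtain ⟨x, y, x0, y0, x1, x2, y1, y2, yx⟩ : ∃ x y : S.E, x ∈ S.cent (S.sym Z) 1 ∧
      y ∈ S.cent (S.sym Z) 1 ∧ x * (e * η) = x ∧ f * η * x = x ∧ y * (f * η) = y ∧
      e * η * y = y ∧ y * x = e * η := by
    refine ⟨S.up F ((LinearMap.range b).subtype ∘ₗ ψ.toLinearMap ∘ₗ a.rangeRestrict),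
      S.up F ((LinearMap.range a).subtype ∘ₗ ψ.symm.toLinearMap ∘ₗ b.rangeRestrict), h.up_mem _,
      h.up_mem _, ?_, ?_, ?_, ?_, ?_⟩
    · rw [ha]
      ext v
      exact congrArg (fun w => (ψ w).1) (Subtype.ext (haa v))
    · rw [hb]
      ext v
      exact k4 hbb _
    · rw [hb]
      ext v
      exact congrArg (fun w => (ψ.symm w).1) (Subtype.ext (hbb v))
    · rw [ha]
      ext v
      exact k4 haa _
    · rw [ha]
      ext v
      exact (congrArg (fun w => (ψ.symm w).1) (Subtype.ext (k4 hbb _))).trans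
        (congrArg Subtype.val (ψ.symm_apply_apply (a.rangeRestrict v)))
  have k5 : ∀ {x e}, SI S Z e → x * (e * η) = x → x * η = x ∧ x * e = x := fun {x e} he h =>
    ⟨by rw [← h, mul_assoc, mul_assoc, s.idem hZ], by
      rw [← h, he.mem.2.2 _ s.mem, mul_assoc, mul_assoc, he.idem]⟩
  have k6 : ∀ {x e}, SI S Z e → e * η * x = x → η * x = x ∧ e * x = x := fun {x e} he h =>
    ⟨by rw [← h, he.mem.2.2 _ s.mem, ← mul_assoc, ← mul_assoc, s.idem hZ], by
      rw [← h, ← mul_assoc, ← mul_assoc, he.idem]⟩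
  have hx := mem_of_spl hZ s x0 (k5 he x1).1 (k6 hf x2).1
  have hy := mem_of_spl hZ s y0 (k5 hf y1).1 (k6 he y2).1
  refine ⟨x + S.st y, add_mem hx (hZ.toLoc.cent.star y hy), ?_, ?_, ?_⟩
  · rw [add_mul, (k5 he x1).2, ← he.symm, ← st_mul, (k6 he y2).2]
  · rw [mul_add, (k6 hf x2).2, ← hf.symm, ← st_mul, (k5 hf y1).2]
  · have h1 : S.st x * x = 0 := by
      rw [← (k6 hf x2).1, st_mul, mul_assoc, ← mul_assoc (S.st η), s.mul' hZ, zero_mul, mul_zero]
    have h2 : y * S.st y = 0 := by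
      rw [← (k5 hf y1).1, st_mul, mul_assoc, ← mul_assoc η, s.mul, zero_mul, mul_zero]
    rw [st_add, st_st, add_mul, mul_add, mul_add, h1, h2, ← st_mul, yx, st_mul, he.symm,
      ← he.mem.2.2 _ (s.star hZ).mem, zero_add, add_zero, ← mul_add, add_comm, s.add, mul_one]

/-- Among three orthogonal blocks of the same rank two are swapped by an isometry. -/
theorem iso_three : ISO3 := by
  intro p _ V _ _ _ S Z hZ e he ho hc
  have hs : ∀ i, SI S Z (e i) := fun i => ⟨(he i).1, (he i).2.1, (he i).2.2⟩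
  have hr : ∀ i j, rk (e i) = rk (e j) := fun i j =>
    Nat.pow_right_injective (Fact.out : p.Prime).two_le
      ((card_range _).symm.trans ((hc i j).trans (card_range _)))
  rcases hZ.cases with hf | ⟨η, s⟩
  · obtain ⟨F, _, _, _, φ, τ, h⟩ := exists_real hZ hf
    have := Real.fd (F := F) (V := V)
    choose a ha using fun i => h.mem_cent'.1 (hs i).mem
    have h1 : ∀ i v, a i (a i v) = a i v := fun i v => idem_app (ha i ▸ (hs i).idem) v
    have h2 : ∀ i v w, φ.b (a i v) w = φ.b v (a i w) := fun i v w => by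
      have := h.adj (hs i).mem v w
      rwa [(hs i).symm, ha i] at this
    obtain ⟨i, j, hij, g, g1, g2, g3⟩ := iso3 (φ := φ) (by
      by_cases hσ : ∃ c, φ.σ c ≠ c
      · exact Or.inl hσ
      push Not at hσ
      by_cases o : S.orth
      · exact Or.inr (Or.inr ⟨hσ, (h.qo o).1, fun t => h.Λ_bot o hσ⟩)
      · exact Or.inr (Or.inl (h.Λ_top o hσ))) _ (fun i => LinearMap.range (a i)) (fun i => by
        rw [Form.Nd, eq_bot_iff]
        rintro _ ⟨⟨v, rfl⟩, h3⟩
        exact φ.nondeg _ fun y => φ.b_symm_zero (by rw [← h1, ← h2]; exact h3 _ ⟨y, rfl⟩))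
      fun i => finrank_eq (S := S) (b := a 0) (by rw [← ha, ← ha, hr i 0])
    refine ⟨i, j, hij, swap_of (hs i) (hs j) (ho i j hij) hZ (h.up_mem (g ∘ₗ a i)) ?_ ?_ ?_
      (hr j i).le fun v => ?_⟩
    · rw [ha]
      ext v
      exact congrArg g (h1 i v)
    · rw [ha]
      ext v
      obtain ⟨w, hw⟩ := g1 _ ⟨v, rfl⟩
      show a j (g (a i v)) = g (a i v)
      rw [← hw, h1]
    · ext w
      refine S.ext_right fun v => ?_
      rw [← β_mu, h.β, h.β, ha]
      show τ (φ.b (g (a i v)) (g (a i w))) = τ (φ.b v (a i w))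
      rw [g2 _ ⟨v, rfl⟩ _ ⟨w, rfl⟩, h2, h1]
    · rw [ha]
      exact h.q_of_Q (g3 _ ⟨v, rfl⟩)
  · obtain ⟨x, hx, h1, h2, h3⟩ := exists_spl hZ s (hs 0) (hs 1) (hr 0 1)
    exact ⟨0, 1, by decide, swap_of (hs 0) (hs 1) (ho 0 1 (by decide)) hZ hx h1 h2 h3 (hr 1 0).le
      (q_spl hZ s (hs 0) hx h3)⟩

end Vale.Agent.P183IS
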