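import Vale.Agent.P183CF.Ring
import Mathlib.GroupTheory.Index

/-!
Among three nondegenerate subspaces of the same dimension two are isometric.
-/

set_option autoImplicit false
set_option linter.all false

namespace Vale.Agent.P183IS

open Module Vale.Agent.P183CF Vale.Agent.P183CF.Form

theorem pigeon {G : Type*} [CommGroup G] [Finite G] (f : G →* G) (h : Nat.card f.ker ≤ 2)
    (a : Fin 3 → G) : ∃ i j, i ≠ j ∧ ∃ s, a j = a i * f s := by
  have := Fintype.ofFinite (G ⧸ f.range)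
  obtain ⟨i, j, hij, e⟩ := Fintype.exists_ne_map_eq_of_card_lt
    (fun i => (QuotientGroup.mk (a i) : G ⧸ f.range)) (by
      rw [Fintype.card_fin, ← Nat.card_eq_fintype_card, ← Subgroup.index_eq_card,
        Subgroup.index_range]
      omega)
  obtain ⟨s, hs⟩ := QuotientGroup.eq.1 e
  exact ⟨i, j, hij, s, by rw [hs, mul_inv_cancel_left]⟩

theorem card_le_two {α : Type*} [Finite α] {s : Set α} {a b : α} (h : ∀ x ∈ s, x = a ∨ x = b) :
    Nat.card s ≤ 2 :=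
  (Set.ncard_le_ncard (t := {a, b}) h).trans ((Set.ncard_insert_le _ _).trans (by simp))

theorem pigeon_sq {F : Type*} [Field F] [Finite F] (a : Fin 3 → F) (h : ∀ i, a i ≠ 0) :
    ∃ i j, i ≠ j ∧ ∃ s : F, s ≠ 0 ∧ a j = s * s * a i := by
  obtain ⟨i, j, hij, s, hs⟩ := pigeon (powMonoidHom 2 : Fˣ →* Fˣ)
    (card_le_two (a := 1) (b := -1) fun x hx => by
      have : (x : F) ^ 2 = 1 := by simpa using congrArg Units.val hx
      rcases sq_eq_one_iff.1 this with e | e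
      · exact Or.inl (Units.ext e)
      · exact Or.inr (Units.ext e)) fun i => Units.mk0 (a i) (h i)
  refine ⟨i, j, hij, s, s.ne_zero, ?_⟩
  have := congrArg Units.val hs
  simp only [Units.val_mk0, Units.val_mul, powMonoidHom_apply, Units.val_pow_eq_pow_val] at this
  rw [this]
  ring

theorem pigeon_as {F : Type*} [Field F] [Finite F] (h2 : (2 : F) = 0) (a : Fin 3 → F) :
    ∃ i j, i ≠ j ∧ ∃ s : F, a j = a i + (s * s + s) := by
  let f : F →+ F := AddMonoidHom.mk' (fun s => s * s + s) fun x y => by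
    linear_combination (x * y) * h2
  obtain ⟨i, j, hij, s, hs⟩ := pigeon (G := Multiplicative F) f.toMultiplicative
    (card_le_two (a := Multiplicative.ofAdd 0) (b := Multiplicative.ofAdd (-1)) fun x hx => by
      have h1 : x.toAdd * x.toAdd + x.toAdd = 0 := hx
      have h3 : x.toAdd * (x.toAdd + 1) = 0 := by linear_combination h1
      rcases mul_eq_zero.1 h3 with e | e
      · exact Or.inl e
      · exact Or.inr (eq_neg_of_add_eq_zero_left e)) fun i => Multiplicative.ofAdd (a i)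
  exact ⟨i, j, hij, s.toAdd, hs⟩

variable {F V : Type*} [Field F] [AddCommGroup V] [Module F V] {φ : Form F V}

/-- `U` is isometric to a subspace of `W` -/
def Iso (φ : Form F V) (U W : Submodule F V) : Prop :=
  ∃ f : V →ₗ[F] V, (∀ x ∈ U, f x ∈ W) ∧ (∀ x ∈ U, ∀ y ∈ U, φ.b (f x) (f y) = φ.b x y) ∧
    ∀ x ∈ U, φ.Q (f x) = φ.Q x

theorem Iso.mono {U U' W W' : Submodule F V} (h : Iso φ U W) (h1 : U' ≤ U) (h2 : W ≤ W') :
    Iso φ U' W' :=
  let ⟨f, a, b, c⟩ := h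
  ⟨f, fun x hx => h2 (a x (h1 hx)), fun x hx y hy => b x (h1 hx) y (h1 hy), fun x hx => c x (h1 hx)⟩

theorem nd1 {x : V} (h : φ.b x x ≠ 0) : φ.Nd (F ∙ x) := by
  rw [Nd, eq_bot_iff]
  rintro z ⟨hz, hz'⟩
  obtain ⟨d, rfl⟩ := Submodule.mem_span_singleton.1 hz
  have h1 := hz' x (Submodule.mem_span_singleton_self x)
  simp only [map_smul, smul_eq_mul, mul_eq_zero, h, or_false] at h1
  simp [h1]

theorem iso1 {x x' : V} (h : φ.b x x ≠ 0) (hQ : φ.Q x' = φ.Q x) : Iso φ (F ∙ x) (F ∙ x') := by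
  have key : ∀ c : F, ((φ.b x x)⁻¹ • φ.r1 x' x) (c • x) = c • x' := fun c => by
    simp [smul_smul, h]
  refine ⟨(φ.b x x)⁻¹ • φ.r1 x' x, fun z hz => ?_, fun z hz w hw => ?_, fun z hz => ?_⟩
  · obtain ⟨c, rfl⟩ := Submodule.mem_span_singleton.1 hz
    rw [key]
    exact Submodule.smul_mem _ _ (Submodule.mem_span_singleton_self _)
  · obtain ⟨c, rfl⟩ := Submodule.mem_span_singleton.1 hz
    obtain ⟨d, rfl⟩ := Submodule.mem_span_singleton.1 hw
    rw [key, key]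
    simp [φ.b_self_congr hQ]
  · obtain ⟨c, rfl⟩ := Submodule.mem_span_singleton.1 hz
    rw [key]
    exact φ.Q_smul_congr hQ c

/-- a pair of isotropic vectors with product one -/
structure Pr (φ : Form F V) (x y : V) : Prop where
  xx : φ.b x x = 0
  yy : φ.b y y = 0
  xy : φ.b x y = 1

theorem Pr.yx {x y : V} (h : Pr φ x y) : φ.b y x = φ.ε := by rw [φ.herm, h.xy]; simp

theorem Pr.nd {x y : V} (h : Pr φ x y) : φ.Nd (Submodule.span F {x, y}) := by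
  rw [Nd, eq_bot_iff]
  rintro z ⟨hz, hz'⟩
  obtain ⟨a, c, rfl⟩ := Submodule.mem_span_pair.1 hz
  have h1 := hz' x (Submodule.subset_span (by simp))
  have h2 := hz' y (Submodule.subset_span (by simp))
  simp [h.xx, h.xy, h.yx, h.yy, φ.ε_ne] at h1 h2
  simp [h1, h2]

theorem Pr.finrank {x y : V} (h : Pr φ x y) : finrank F (Submodule.span F {x, y}) = 2 := by
  have : LinearIndependent F ![x, y] := LinearIndependent.pair_iff.2 fun a c e => by
    have h1 := congrArg (φ.b x) e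
    have h2 := congrArg (φ.b y) e
    simp [h.xx, h.xy, h.yx, h.yy, φ.ε_ne] at h1 h2
    exact ⟨h2, h1⟩
  have h1 := finrank_span_eq_card this
  rwa [Matrix.range_cons_cons_empty] at h1

theorem iso2 {x y x' y' : V} (h : Pr φ x y) (h' : Pr φ x' y') (h1 : φ.Q x' = φ.Q x)
    (h2 : φ.Q y' = φ.Q y) : Iso φ (Submodule.span F {x, y}) (Submodule.span F {x', y'}) := by
  have key : ∀ a c : F, (φ.ε • φ.r1 x' y + φ.r1 y' x) (a • x + c • y) = a • x' + c • y' :=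
    fun a c => by simp [smul_smul, h.xx, h.xy, h.yx, h.yy, mul_comm a]
  refine ⟨φ.ε • φ.r1 x' y + φ.r1 y' x, fun z hz => ?_, fun z hz w hw => ?_, fun z hz => ?_⟩
  · obtain ⟨a, c, rfl⟩ := Submodule.mem_span_pair.1 hz
    exact Submodule.mem_span_pair.2 ⟨a, c, (key a c).symm⟩
  · obtain ⟨a, c, rfl⟩ := Submodule.mem_span_pair.1 hz
    obtain ⟨a', c', rfl⟩ := Submodule.mem_span_pair.1 hw
    rw [key, key]
    simp [h.xx, h.xy, h.yx, h.yy, h'.xx, h'.xy, h'.yx, h'.yy]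
  · obtain ⟨a, c, rfl⟩ := Submodule.mem_span_pair.1 hz
    rw [key, Q_add, Q_add, φ.Q_smul_congr h1, φ.Q_smul_congr h2]
    simp [h.xy, h'.xy]

variable [Finite F] [FiniteDimensional F V]

theorem Iso.glue {U U' W W' : Submodule F V} (hU : φ.Nd U) (h1 : U ≤ W) (h2 : U' ≤ W')
    (h : Iso φ U U') (h' : Iso φ (W ⊓ φ.perp U) (W' ⊓ φ.perp U')) : Iso φ W W' := by
  obtain ⟨f, f1, f2, f3⟩ := h
  obtain ⟨g, g1, g2, g3⟩ := h'
  let π : V →ₗ[F] V := U.subtype ∘ₗ Submodule.projectionOnto _ _ hU.isCompl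
  have key : ∀ x ∈ W, ∃ y ∈ U, ∃ z ∈ W ⊓ φ.perp U, x = y + z ∧
      (f ∘ₗ π + g ∘ₗ (LinearMap.id - π) : V →ₗ[F] V) x = f y + g z := by
    intro x hx
    obtain ⟨y, hy, z, hz, rfl⟩ := hU.decomp x
    have e1 : π y = y := congrArg Subtype.val (Submodule.projectionOnto_apply_left hU.isCompl ⟨y, hy⟩)
    have e2 : π z = 0 :=
      congrArg Subtype.val (Submodule.projectionOnto_apply_right hU.isCompl ⟨z, hz⟩)
    exact ⟨y, hy, z, ⟨by simpa using W.sub_mem hx (h1 hy), hz⟩, rfl, by simp [e1, e2]⟩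
  refine ⟨f ∘ₗ π + g ∘ₗ (LinearMap.id - π), fun x hx => ?_, fun x hx x' hx' => ?_, fun x hx => ?_⟩
  · obtain ⟨y, hy, z, hz, -, e⟩ := key x hx
    rw [e]
    exact W'.add_mem (h2 (f1 y hy)) (g1 z hz).1
  · obtain ⟨y, hy, z, hz, rfl, e⟩ := key x hx
    obtain ⟨y', hy', z', hz', rfl, e'⟩ := key x' hx'
    rw [e, e']
    simp [f2 y hy y' hy', g2 z hz z' hz', (g1 z' hz').2 _ (f1 y hy), hz'.2 y hy,
      φ.mem_perp'.1 (g1 z hz).2 _ (f1 y' hy'), φ.mem_perp'.1 hz.2 y' hy']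
  · obtain ⟨y, hy, z, hz, rfl, e⟩ := key x hx
    rw [e, Q_add, Q_add, f3 y hy, g3 z hz, (g1 z hz).2 _ (f1 y hy), hz.2 y hy]

theorem exists_b {W : Submodule F V} (hW : φ.Nd W) {x : V} (hx : x ∈ W) (h0 : x ≠ 0) :
    ∃ y ∈ W, φ.b x y ≠ 0 := by
  by_contra c
  push Not at c
  exact h0 (hW.eq_zero hx c)

theorem exists_pr {W : Submodule F V} (hW : φ.Nd W) (h : ∃ x ∈ W, x ≠ 0 ∧ φ.Q x = 0) :
    ∃ x y, x ∈ W ∧ y ∈ W ∧ φ.Q x = 0 ∧ φ.Q y = 0 ∧ φ.b x y = 1 := by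
  obtain ⟨x, hx, h0, hQ⟩ := h
  obtain ⟨y, hy, h1⟩ := exists_b hW hx h0
  obtain ⟨f, hf, h2, h3⟩ := φ.exists_hyp hx hy hQ h1
  exact ⟨x, f, hx, hf, hQ, h2, h3⟩

theorem univ (hs : ∀ c, φ.σ c = c) {W : Submodule F V} (hW : φ.Nd W) (h2 : 2 ≤ finrank F W)
    (t : F) : ∃ x ∈ W, φ.Q x = φ.md t := by
  by_cases h : ∃ x ∈ W, x ≠ 0 ∧ φ.Q x = 0
  · obtain ⟨x, y, hx, hy, h1, h3, h4⟩ := exists_pr hW h
    exact ⟨_, W.add_mem hx (W.smul_mem t hy), Q_pair h1 h3 h4 t⟩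
  obtain ⟨v, hv⟩ := exists_linearIndependent_of_le_finrank h2
  obtain ⟨x, y, z, h0, h1⟩ := ternary (φ.q (v 0)) (φ.q (v 1)) (-t) (φ.b (v 0) (v 1)) 0 0
  have hw := W.add_mem (W.smul_mem x (v 0).2) (W.smul_mem y (v 1).2)
  have h3 : φ.Q (x • (v 0).1 + y • (v 1).1) = φ.md (z * z * t) := by
    rw [Q_add, Q_smul, Q_smul]
    simp only [← map_add φ.md]
    congr 1
    simp only [map_smul, b_smul_left, hs, smul_eq_mul]
    linear_combination h1
  by_cases hz : z = 0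
  · refine absurd ⟨_, hw, fun e => ?_, by rw [h3, hz]; simp⟩ h
    have h4 := Fintype.linearIndependent_iff.1 hv ![x, y] (by
      apply Subtype.ext
      simpa [Fin.sum_univ_two] using e)
    exact h0 ⟨h4 0, h4 1, hz⟩
  · refine ⟨_, W.smul_mem z⁻¹ hw, ?_⟩
    rw [φ.Q_smul' h3, hs]
    congr 1
    field_simp

theorem exists_aniso (hs : ∃ c, φ.σ c ≠ c) {W : Submodule F V} (hW : φ.Nd W) (h : W ≠ ⊥) :
    ∃ x ∈ W, φ.b x x ≠ 0 := by
  by_contra c
  push Not at c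
  obtain ⟨x, hx, h0⟩ := Submodule.exists_mem_ne_zero_of_ne_bot h
  obtain ⟨x, y, hx, hy, -, -, h1⟩ := exists_pr hW ⟨x, hx, h0, φ.Q_eq_zero_of_ne hs (c x hx)⟩
  have key : ∀ t : F, t + φ.σ t * φ.ε = 0 := fun t => by
    have := c _ (W.add_mem hx (W.smul_mem t hy))
    simpa [c x hx, c y hy, h1, φ.herm x y, add_comm] using this
  obtain ⟨t, ht⟩ := hs
  have h2 := key 1
  have h3 := key t
  rw [map_one] at h2
  exact ht (by linear_combination φ.σ t * h2 - h3)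

theorem iso3 (hT : (∃ c, φ.σ c ≠ c) ∨ (∀ t, t ∈ φ.Λ) ∨
    ((∀ c, φ.σ c = c) ∧ φ.ε = 1 ∧ ∀ t ∈ φ.Λ, t = 0)) (r : ℕ) :
    ∀ W : Fin 3 → Submodule F V, (∀ i, φ.Nd (W i)) → (∀ i, finrank F (W i) = r) →
      ∃ i j, i ≠ j ∧ Iso φ (W i) (W j) := by
  induction r using Nat.strong_induction_on with
  | _ r ih =>
  intro W hW hr
  have red : ∀ (U : Fin 3 → Submodule F V) (s : ℕ), 0 < s → (∀ i, U i ≤ W i) → (∀ i, φ.Nd (U i)) →
      (∀ i, finrank F (U i) = s) → (∀ i j, Iso φ (U i) (U j)) →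
      ∃ i j, i ≠ j ∧ Iso φ (W i) (W j) := by
    intro U s hs h1 h2 h3 h4
    have h5 := fun i => (h2 i).finrank_inf_perp (h1 i)
    obtain ⟨i, j, hij, h⟩ := ih (r - s) (by have := h5 0; rw [hr, h3] at this; omega)
      (fun i => W i ⊓ φ.perp (U i)) (fun i => (hW i).inf_perp (h2 i) (h1 i))
      fun i => by have := h5 i; rw [hr, h3] at this; omega
    exact ⟨i, j, hij, Iso.glue (h2 i) (h1 i) (h1 j) (h4 i j) h⟩
  have red1 : ∀ x : Fin 3 → V, (∀ i, x i ∈ W i) → (∀ i, φ.b (x i) (x i) ≠ 0) →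
      (∀ i j, φ.Q (x i) = φ.Q (x j)) → ∃ i j, i ≠ j ∧ Iso φ (W i) (W j) := fun x h1 h2 h3 =>
    red (fun i => F ∙ x i) 1 one_pos (fun i => span1_le (h1 i)) (fun i => nd1 (h2 i))
      (fun i => finrank_span_singleton fun e => h2 i (by simp [e])) fun i j => iso1 (h2 i) (h3 j i)
  have sp : ∀ {i x y}, x ∈ W i → y ∈ W i → Submodule.span F {x, y} ≤ W i := fun hx hy =>
    Submodule.span_le.2 (by rintro _ (rfl | rfl) <;> assumption)
  have red2 : (∀ i, ∃ x ∈ W i, x ≠ 0 ∧ φ.Q x = 0) → ∃ i j, i ≠ j ∧ Iso φ (W i) (W j) := fun h => by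
    choose x y hx hy h1 h2 h3 using fun i => exists_pr (hW i) (h i)
    have h4 : ∀ i, Pr φ (x i) (y i) := fun i => ⟨φ.b_self_zero (h1 i), φ.b_self_zero (h2 i), h3 i⟩
    exact red (fun i => Submodule.span F {x i, y i}) 2 two_pos (fun i => sp (hx i) (hy i))
      (fun i => (h4 i).nd) (fun i => (h4 i).finrank)
      fun i j => iso2 (h4 i) (h4 j) (by rw [h1, h1]) (by rw [h2, h2])
  by_cases h0 : r = 0
  · have : W 0 = ⊥ := Submodule.finrank_eq_zero.1 (by rw [hr, h0])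
    refine ⟨0, 1, by decide, 0, ?_⟩
    rw [this]
    simp
  have hne : ∀ i, W i ≠ ⊥ := fun i e => h0 (by rw [← hr i, e, finrank_bot])
  rcases hT with hs | hs | ⟨hs, he, hΛ⟩
  · choose x hx h1 using fun i => exists_aniso hs (hW i) (hne i)
    have hσ : ∀ z, φ.σ (φ.b z z) = φ.ε * φ.b z z := fun z => by
      conv_rhs => rw [φ.herm z z]
      simp
    choose c hc using fun i => φ.exists_norm hs (a := φ.b (x 0) (x 0) / φ.b (x i) (x i)) (by
      rw [map_div₀, hσ, hσ, mul_div_mul_left _ _ φ.ε_ne])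
    have h2 : ∀ i, φ.b (c i • x i) (c i • x i) = φ.b (x 0) (x 0) := fun i => by
      rw [b_smul_left, b_smul_right, ← mul_assoc, hc, div_mul_cancel₀ _ (h1 i)]
    refine red1 (fun i => c i • x i) (fun i => (W i).smul_mem _ (hx i))
      (fun i => by rw [h2]; exact h1 0) fun i j => φ.md_eq_iff.2 (φ.mem_Λ_of_ne hs ?_)
    have h3 := (h2 i).trans (h2 j).symm
    rw [φ.b_self, φ.b_self] at h3
    rw [map_sub]
    linear_combination h3
  · refine red2 fun i => ?_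
    obtain ⟨x, hx, h1⟩ := Submodule.exists_mem_ne_zero_of_ne_bot (hne i)
    exact ⟨x, hx, h1, φ.md_eq_zero.2 (hs _)⟩
  have hb : ∀ x, φ.b x x = 2 * φ.q x := fun x => by rw [φ.b_self, he, hs]; ring
  by_cases h1 : r = 1
  · choose x hx h2 using fun i => Submodule.exists_mem_ne_zero_of_ne_bot (hne i)
    have h3 : ∀ i, ∀ y ∈ W i, y ≠ 0 → W i ≤ F ∙ y := fun i y hy h =>
      (Submodule.eq_of_le_of_finrank_eq (span1_le hy)
        (by rw [finrank_span_singleton h, hr, h1])).ge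
    have h4 : ∀ i, ∀ y ∈ W i, y ≠ 0 → φ.b y y ≠ 0 := fun i y hy h e => by
      obtain ⟨z, hz, h5⟩ := exists_b (hW i) hy h
      obtain ⟨c, rfl⟩ := Submodule.mem_span_singleton.1 (h3 i y hy h hz)
      simp [e] at h5
    obtain ⟨i, j, hij, s, h5, h6⟩ := pigeon_sq (fun i => φ.q (x i)) fun i e =>
      h4 i _ (hx i) (h2 i) (by rw [hb, e, mul_zero])
    have h7 := (W i).smul_mem s (hx i)
    have h8 := smul_ne_zero h5 (h2 i)
    exact ⟨i, j, hij, (iso1 (h4 i _ h7 h8) (x' := x j) (by rw [Q_smul, hs, ← h6]; rfl)).mono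
      (h3 i _ h7 h8) (span1_le (hx j))⟩
  choose x hx h2 using fun i => univ hs (hW i) (by rw [hr]; omega) 1
  by_cases h3 : (2 : F) = 0
  swap
  · refine red1 x hx (fun i => ?_) fun i j => by rw [h2, h2]
    rw [φ.b_self' (h2 i), he, hs, one_mul, one_add_one_eq_two]
    exact h3
  by_cases h4 : 3 ≤ r
  · exact red2 fun i => φ.exists_sing _ (by rw [hr]; exact h4)
  have h5 : ∀ x, φ.b x x = 0 := fun x => by rw [hb, h3, zero_mul]
  have h6 : ∀ i, ∃ y ∈ W i, φ.b (x i) y = 1 := fun i => by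
    obtain ⟨y, hy, h⟩ := exists_b (hW i) (hx i) fun e => by
      have := h2 i
      rw [e, Q_zero] at this
      exact one_ne_zero (hΛ _ (φ.md_eq_zero.1 this.symm))
    exact ⟨(φ.b (x i) y)⁻¹ • y, (W i).smul_mem _ hy, by simp [h]⟩
  choose y hy h6 using h6
  obtain ⟨i, j, hij, s, h7⟩ := pigeon_as h3 fun i => φ.q (y i)
  have h8 : Pr φ (x i) (y i + s • x i) := ⟨h5 _, h5 _, by simp [h5, h6]⟩
  have h9 := (W i).add_mem (hy i) ((W i).smul_mem s (hx i))
  refine ⟨i, j, hij, (iso2 h8 ⟨h5 (x j), h5 (y j), h6 j⟩ (by rw [h2, h2]) ?_).mono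
    (Submodule.eq_of_le_of_finrank_eq (sp (hx i) h9) (by rw [h8.finrank, hr]; omega)).ge
    (sp (hx j) (hy j))⟩
  rw [Q_add, φ.Q_smul' (h2 i), b_smul_right, φ.herm, h6, he, hs, hs, Q, Q, h7, ← map_add, ← map_add]
  congr 1
  ring

end Vale.Agent.P183IS
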